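import Vale.Agent.P359.Defs

/-!
# P359: binomial sums for the pair vectors
-/

open Finset

namespace Vale.Agent.P359

lemma vdm (m n k : ℕ) :
    ∑ a ∈ range (k + 1), (m.choose a : ℝ) * (n.choose (k - a) : ℝ) = ((m + n).choose k : ℝ) := by
  rw [Nat.add_choose_eq, Finset.Nat.sum_antidiagonal_eq_sum_range_succ
    (fun i j => m.choose i * n.choose j)]
  push_cast
  rfl

lemma absorb (Q a : ℕ) :
    ((a + 1 : ℕ) : ℝ) * (Q.choose (a + 1) : ℝ) = (Q : ℝ) * ((Q - 1).choose a : ℝ) := by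
  rcases Q with _ | Q
  · simp
  · have := Nat.add_one_mul_choose_eq Q a
    have h2 : (a + 1) * (Q + 1).choose (a + 1) = (Q + 1) * Q.choose a := by
      rw [this]; ring
    simp only [Nat.add_sub_cancel]
    exact_mod_cast h2

lemma moment_one (Q s : ℕ) :
    ∑ a ∈ range (s + 2), (a : ℝ) * (Q.choose a : ℝ) * (Q.choose (s + 1 - a) : ℝ)
      = Q * ((Q - 1 + Q).choose s : ℝ) := by
  rw [Finset.sum_range_succ']
  simp only [Nat.cast_zero, zero_mul, add_zero]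
  rw [← vdm, Finset.mul_sum]
  refine Finset.sum_congr rfl fun a _ => ?_
  rw [absorb, Nat.add_sub_add_right]
  ring

lemma moment_two (Q s : ℕ) :
    ∑ a ∈ range (s + 3), (a : ℝ) * ((a : ℝ) - 1) * (Q.choose a : ℝ) * (Q.choose (s + 2 - a) : ℝ)
      = Q * ((Q - 1 : ℕ) : ℝ) * ((Q - 2 + Q).choose s : ℝ) := by
  rw [Finset.sum_range_succ', Finset.sum_range_succ']
  simp only [Nat.cast_zero, zero_mul, zero_add, Nat.cast_one, sub_self, mul_zero, add_zero]
  rw [← vdm, Finset.mul_sum]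
  refine Finset.sum_congr rfl fun a _ => ?_
  have h1 := absorb Q (a + 1)
  have h2 := absorb (Q - 1) a
  have h3 : Q - 1 - 1 = Q - 2 := by omega
  rw [h3] at h2
  have h4 : s + 2 - (a + 1 + 1) = s - a := by omega
  rw [h4]
  push_cast at h1 h2 ⊢
  linear_combination ((a : ℝ) + 1) * (Q.choose (s - a) : ℝ) * h1
    + (Q : ℝ) * (Q.choose (s - a) : ℝ) * h2

lemma choose_step (n s : ℕ) :
    ((s + 1 : ℕ) : ℝ) * (n.choose (s + 1) : ℝ) = ((n : ℝ) - s) * (n.choose s : ℝ) := by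
  have h := Nat.choose_succ_right_eq n s
  rcases le_or_gt s n with hs | hs
  · have : ((n.choose (s + 1) * (s + 1) : ℕ) : ℝ) = ((n.choose s * (n - s) : ℕ) : ℝ) := by
      exact_mod_cast h
    push_cast [Nat.cast_sub hs] at this ⊢
    linarith
  · rw [Nat.choose_eq_zero_of_lt hs, Nat.choose_eq_zero_of_lt (by omega)]
    simp

/-- `∑ (S - 2a)^2 C(Q,a) C(Q,S-a) = 2 Q C(2Q-2, S-1)`. -/
lemma centred (Q S : ℕ) (hS : 1 ≤ S) (hQ : 2 ≤ Q) :
    ∑ a ∈ range (S + 1), ((S : ℝ) - 2 * a) ^ 2 * (Q.choose a : ℝ) * (Q.choose (S - a) : ℝ)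
      = 2 * Q * ((2 * Q - 2).choose (S - 1) : ℝ) := by
  obtain ⟨s, rfl⟩ : ∃ s, S = s + 1 := ⟨S - 1, by omega⟩
  obtain ⟨q, rfl⟩ : ∃ q, Q = q + 2 := ⟨Q - 2, by omega⟩
  rcases s with _ | t
  · simp [Finset.sum_range_succ]
    ring
  have e0 := vdm (q + 2) (q + 2) (t + 2)
  have e1 := moment_one (q + 2) (t + 1)
  have e2 := moment_two (q + 2) t
  have : ∀ a ∈ range (t + 1 + 1 + 1), (((t + 1 + 1 : ℕ) : ℝ) - 2 * a) ^ 2 * ((q + 2).choose a : ℝ)
      * ((q + 2).choose (t + 1 + 1 - a) : ℝ) =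
      ((t : ℝ) + 2) ^ 2 * (((q + 2).choose a : ℝ) * ((q + 2).choose (t + 2 - a) : ℝ))
      - 4 * ((t : ℝ) + 1) * ((a : ℝ) * ((q + 2).choose a : ℝ) * ((q + 2).choose (t + 1 + 1 - a) : ℝ))
      + 4 * ((a : ℝ) * ((a : ℝ) - 1) * ((q + 2).choose a : ℝ) * ((q + 2).choose (t + 2 - a) : ℝ)) := by
    intro a _
    push_cast
    ring
  rw [Finset.sum_congr rfl this, Finset.sum_add_distrib, Finset.sum_sub_distrib,
    ← Finset.mul_sum, ← Finset.mul_sum, ← Finset.mul_sum]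
  rw [show t + 1 + 1 + 1 = t + 2 + 1 by rfl] at *
  rw [e0]
  erw [e1, e2]
  simp only [show q + 2 - 1 = q + 1 by omega, show q + 2 - 2 = q by omega,
    show q + 1 + (q + 2) = 2 * q + 3 by omega, show q + 2 + (q + 2) = 2 * q + 4 by omega,
    show q + (q + 2) = 2 * q + 2 by omega, show 2 * (q + 2) - 2 = 2 * q + 2 by omega,
    show t + 1 + 1 - 1 = t + 1 by omega]
  have p1 : ((2 * q + 3).choose (t + 1) : ℝ) = ((2 * q + 2).choose t : ℝ) + (2 * q + 2).choose (t + 1) := by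
    exact_mod_cast Nat.choose_succ_succ (2 * q + 2) t
  have p2 : ((2 * q + 4).choose (t + 2) : ℝ) = ((2 * q + 3).choose (t + 1) : ℝ) + (2 * q + 3).choose (t + 2) := by
    exact_mod_cast Nat.choose_succ_succ (2 * q + 3) (t + 1)
  have p3 : ((2 * q + 3).choose (t + 2) : ℝ) = ((2 * q + 2).choose (t + 1) : ℝ) + (2 * q + 2).choose (t + 2) := by
    exact_mod_cast Nat.choose_succ_succ (2 * q + 2) (t + 1)
  have s1 := choose_step (2 * q + 2) t
  have s2 := choose_step (2 * q + 2) (t + 1)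
  rw [p2, p3, p1]
  push_cast at s1 s2 ⊢
  linear_combination (((t : ℝ) + 2) * 1) * s2 + ((t : ℝ) - (2 * (q : ℝ) + 2)) * s1

lemma two_pow_mul_choose (m M : ℕ) : 2 ^ m * M.choose m ≤ (2 * M).choose m := by
  induction m with
  | zero => simp
  | succ m ih =>
    refine Nat.le_of_mul_le_mul_right ?_ (Nat.succ_pos m)
    have h1 := Nat.choose_succ_right_eq M m
    have h2 := Nat.choose_succ_right_eq (2 * M) m
    calc 2 ^ (m + 1) * M.choose (m + 1) * (m + 1)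
        = 2 ^ m * M.choose m * (2 * (M - m)) := by
          rw [mul_assoc, h1, pow_succ]; ring
      _ ≤ (2 * M).choose m * (2 * M - m) := Nat.mul_le_mul ih (by omega)
      _ = (2 * M).choose (m + 1) * (m + 1) := h2.symm

/-- The weight of the orbital `S` against the orbital `0`. -/
lemma weight_le {Q S : ℕ} (hS : 1 ≤ S) :
    (S : ℝ) ^ 2 * (Q.choose S : ℝ) / ((Q : ℝ) * ((2 * Q - 2).choose (S - 1) : ℝ))
      ≤ (S : ℝ) / 2 ^ (S - 1) := by
  rcases lt_or_ge Q S with h | h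
  · rw [Nat.choose_eq_zero_of_lt h]; simp; positivity
  obtain ⟨m, rfl⟩ : ∃ m, S = m + 1 := ⟨S - 1, by omega⟩
  have ha := absorb Q m
  have hc : (2 : ℝ) ^ m * ((Q - 1).choose m : ℝ) ≤ ((2 * (Q - 1)).choose m : ℝ) := by
    exact_mod_cast two_pow_mul_choose m (Q - 1)
  rw [show 2 * Q - 2 = 2 * (Q - 1) by omega, Nat.add_sub_cancel]
  have hQ : (0 : ℝ) < Q := by exact_mod_cast (show 0 < Q by omega)
  have hd : (0 : ℝ) < ((2 * (Q - 1)).choose m : ℝ) := by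
    exact_mod_cast Nat.choose_pos (show m ≤ 2 * (Q - 1) by omega)
  rw [div_le_div_iff₀ (by positivity) (by positivity)]
  calc ((m + 1 : ℕ) : ℝ) ^ 2 * (Q.choose (m + 1) : ℝ) * 2 ^ m
      = ((m + 1 : ℕ) : ℝ) * (((m + 1 : ℕ) : ℝ) * (Q.choose (m + 1) : ℝ)) * 2 ^ m := by ring
    _ = ((m + 1 : ℕ) : ℝ) * Q * (2 ^ m * ((Q - 1).choose m : ℝ)) := by rw [ha]; ring
    _ ≤ ((m + 1 : ℕ) : ℝ) * Q * ((2 * (Q - 1)).choose m : ℝ) := by gcongr
    _ = _ := by ring

lemma weight_sum (n : ℕ) : ∑ S ∈ range n, (if 2 ≤ S then (S : ℝ) / 2 ^ (S - 1) else 0) ≤ 3 := by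
  have key : ∀ k : ℕ,
      ∑ S ∈ range (k + 2), (if 2 ≤ S then (S : ℝ) / 2 ^ (S - 1) else 0) = 3 - ((k : ℝ) + 3) / 2 ^ k := by
    intro k
    induction k with
    | zero => norm_num [Finset.sum_range_succ]
    | succ k ih =>
      rw [show k + 1 + 2 = (k + 2) + 1 by rfl, Finset.sum_range_succ, ih, if_pos (by omega),
        show k + 2 - 1 = k + 1 by omega, pow_succ]
      push_cast
      field_simp
      ring
  rcases lt_or_ge n 2 with h | h
  · rw [Finset.sum_eq_zero (fun S hS => if_neg (by simp at hS; omega))]; norm_num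
  · obtain ⟨k, rfl⟩ : ∃ k, n = k + 2 := ⟨n - 2, by omega⟩
    rw [key]
    have : (0 : ℝ) ≤ ((k : ℝ) + 3) / 2 ^ k := by positivity
    linarith

end Vale.Agent.P359
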