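import Mathlib

/-!
# P359: the V1 pseudopotential on the sphere, in monomial coordinates

The orbital `k` is the normalised monomial `√(choose Q k) u^(Q-k) v^k`.
-/

open Finset
open scoped Classical

namespace Vale.Agent.P359

/-- A configuration: one orbital for each of `N` tensor factors. -/
abbrev Config (N Q : ℕ) := Fin N → Fin (Q + 1)

/-- Real antisymmetric tensors. -/
def IsAntisym {N Q : ℕ} (ψ : Config N Q → ℝ) : Prop :=
  ∀ (c : Config N Q) (σ : Equiv.Perm (Fin N)), ψ (c ∘ σ) = ((Equiv.Perm.sign σ : ℤ) : ℝ) * ψ c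

/-- The vector of total index `S` (for `1 ≤ S ≤ 2Q-1`) of the spin `Q-1` subspace of two factors. -/
noncomputable def pairVec (Q S : ℕ) (a b : Fin (Q + 1)) : ℝ :=
  if (a : ℕ) + b = S then
    ((b : ℝ) - a) * Real.sqrt (Q.choose a) * Real.sqrt (Q.choose b) else 0

/-- The squared norm of `pairVec Q S`. -/
noncomputable def pairNormSq (Q S : ℕ) : ℝ :=
  ∑ a : Fin (Q + 1), ∑ b : Fin (Q + 1), pairVec Q S a b ^ 2

/-- The configurations of the factors other than `i` and `j`, normalised at `i` and `j`. -/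
noncomputable def restConfigs {N Q : ℕ} (i j : Fin N) : Finset (Config N Q) :=
  univ.filter fun c => c i = 0 ∧ c j = 0

/-- Component of `ψ` on `pairVec Q S` in the factors `i, j`, at a configuration of the others. -/
noncomputable def pairAmp {N Q : ℕ} (S : ℕ) (i j : Fin N) (c : Config N Q)
    (ψ : Config N Q → ℝ) : ℝ :=
  ∑ a : Fin (Q + 1), ∑ b : Fin (Q + 1),
    pairVec Q S a b * ψ (Function.update (Function.update c i a) j b)

/-- The expectation of the sum over pairs of the spin `Q-1` projections. -/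
noncomputable def energy {N Q : ℕ} (ψ : Config N Q → ℝ) : ℝ :=
  ∑ x ∈ (univ : Finset (Fin N × Fin N)).filter (fun x => x.1 < x.2),
    ∑ c ∈ restConfigs x.1 x.2, ∑ S ∈ Finset.Icc 1 (2 * Q - 1),
      pairAmp S x.1 x.2 c ψ ^ 2 / pairNormSq Q S

/-- The standard inner product. -/
def inner' {N Q : ℕ} (φ ψ : Config N Q → ℝ) : ℝ := ∑ c, φ c * ψ c

/-- The Laughlin vector: the coefficients of `∏_{i<j} (v_j - v_i)^3` (at `u = 1`). -/
noncomputable def laughlin (N : ℕ) (c : Config N (3 * (N - 1))) : ℝ :=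
  MvPolynomial.coeff (Finsupp.equivFunOnFinite.symm fun i => (c i : ℕ))
      (∏ i : Fin N, ∏ j ∈ Finset.Ioi i, (MvPolynomial.X j - MvPolynomial.X i) ^ 3) /
    ∏ i, Real.sqrt ((3 * (N - 1)).choose (c i))

end Vale.Agent.P359
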