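import Vale.Agent.P359.Defs

/-!
# P359: the polynomial of the trial state
-/

open Finset MvPolynomial
open scoped Classical

namespace Vale.Agent.P359

variable {n : ℕ}

/-- The exponent vector of a configuration. -/
noncomputable def expo {Q : ℕ} (c : Config n Q) : Fin n →₀ ℕ :=
  Finsupp.equivFunOnFinite.symm fun i => (c i : ℕ)

@[simp] lemma expo_apply {Q : ℕ} (c : Config n Q) (i : Fin n) : expo c i = (c i : ℕ) := rfl

/-- The Laughlin polynomial shifted up by two orbitals. -/
noncomputable def shifted (n : ℕ) : MvPolynomial (Fin n) ℝ :=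
  (∏ i : Fin n, X i ^ 2) * ∏ i : Fin n, ∏ j ∈ Finset.Ioi i, (X j - X i) ^ 3

lemma shifted_ne_zero : shifted n ≠ 0 := by
  refine mul_ne_zero (prod_ne_zero_iff.2 fun i _ => pow_ne_zero _ (X_ne_zero i))
    (prod_ne_zero_iff.2 fun i _ => prod_ne_zero_iff.2 fun j hj => pow_ne_zero _ ?_)
  rw [sub_ne_zero]
  exact fun h => (Finset.mem_Ioi.1 hj).ne' (X_injective h)

lemma two_le_of_coeff {m : Fin n →₀ ℕ} (h : coeff m (shifted n) ≠ 0) (i : Fin n) : 2 ≤ m i := by
  by_contra hi
  apply h
  have hd : shifted n = X i * (X i * ((∏ j ∈ univ.erase i, X j ^ 2) *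
      ∏ a : Fin n, ∏ b ∈ Finset.Ioi a, (X b - X a) ^ 3)) := by
    rw [shifted, ← mul_prod_erase univ (fun j : Fin n => (X j : MvPolynomial (Fin n) ℝ) ^ 2) (mem_univ i)]
    ring
  rw [hd, coeff_X_mul']
  split_ifs with h1
  · rw [coeff_X_mul', if_neg]
    simp only [Finsupp.mem_support_iff, Finsupp.tsub_apply, Finsupp.single_eq_same, ne_eq, not_not]
    omega
  · rfl

lemma degreeOf_pair_le (i a b : Fin n) (hab : a ≠ b) :
    degreeOf i ((X b - X a : MvPolynomial (Fin n) ℝ) ^ 3) ≤ if i = a ∨ i = b then 3 else 0 := by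
  refine (degreeOf_pow_le i _ 3).trans ?_
  have h := degreeOf_sub_le i (X b : MvPolynomial (Fin n) ℝ) (X a)
  rw [degreeOf_X, degreeOf_X] at h
  split_ifs at h ⊢ with h1 h2 h3 h4 <;> simp_all

lemma coeff_le {m : Fin n →₀ ℕ} (h : coeff m (shifted n) ≠ 0) (i : Fin n) :
    m i + 1 ≤ 3 * n := by
  have h1 := monomial_le_degreeOf i (mem_support_iff.2 h)
  have h2 : degreeOf i (∏ j : Fin n, (X j : MvPolynomial (Fin n) ℝ) ^ 2) ≤ 2 := by
    refine (degreeOf_prod_le i _ _).trans ?_
    rw [Finset.sum_eq_single i]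
    · simp
    · intro j _ hj; exact degreeOf_X_pow_of_ne 2 (Ne.symm hj)
    · simp
  have h3 : degreeOf i (∏ a : Fin n, ∏ b ∈ Finset.Ioi a, ((X b - X a : MvPolynomial (Fin n) ℝ)) ^ 3)
      ≤ 3 * (n - 1) := by
    refine (degreeOf_prod_le i _ _).trans ?_
    refine (Finset.sum_le_sum fun a _ => degreeOf_prod_le i _ _).trans ?_
    calc ∑ a : Fin n, ∑ b ∈ Finset.Ioi a, degreeOf i ((X b - X a : MvPolynomial (Fin n) ℝ) ^ 3)
        ≤ ∑ a : Fin n, ∑ b ∈ Finset.Ioi a, (if i = a ∨ i = b then 3 else 0) :=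
          Finset.sum_le_sum fun a _ => Finset.sum_le_sum fun b hb =>
            degreeOf_pair_le i a b (Finset.mem_Ioi.1 hb).ne
      _ ≤ ∑ a : Fin n, if a = i then 3 * (n - 1 - (i : ℕ)) else if a < i then 3 else 0 := by
          refine Finset.sum_le_sum fun a _ => ?_
          split_ifs with ha hlt
          · subst ha; simp [mul_comm]
          · rw [Finset.sum_eq_single i]
            · simp
            · intro b _ hb; simp [hb, Ne.symm hb, Ne.symm ha]
            · intro hn; exact absurd (Finset.mem_Ioi.2 hlt) hn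
          · rw [Finset.sum_eq_zero]
            intro b hb
            have := Finset.mem_Ioi.1 hb
            rw [if_neg]
            rintro (rfl | rfl)
            · exact ha rfl
            · exact hlt this
      _ = 3 * (n - 1 - (i : ℕ)) + 3 * (i : ℕ) := by
          rw [← Finset.add_sum_erase _ _ (Finset.mem_univ i), if_pos rfl]
          congr 1
          rw [Finset.sum_congr rfl (fun a ha => if_neg (Finset.ne_of_mem_erase ha)), Finset.sum_ite,
            Finset.sum_const_zero, add_zero, Finset.sum_const, smul_eq_mul, mul_comm]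
          congr 1
          rw [show (univ.erase i).filter (fun a => a < i) = Finset.Iio i from ?_, Fin.card_Iio]
          ext a; simp only [Finset.mem_filter, Finset.mem_erase, Finset.mem_Iio, mem_univ, and_true]
          exact ⟨fun h => h.2, fun h => ⟨h.ne, h⟩⟩
      _ ≤ 3 * (n - 1) := by have := i.isLt; omega
  have h4 := degreeOf_mul_le i (∏ j : Fin n, (X j : MvPolynomial (Fin n) ℝ) ^ 2)
    (∏ a : Fin n, ∏ b ∈ Finset.Ioi a, ((X b - X a : MvPolynomial (Fin n) ℝ)) ^ 3)
  have := i.isLt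
  unfold shifted at h1
  omega

/-- Number of pairs. -/
def pairs (n : ℕ) : ℕ := ∑ i : Fin n, #(Finset.Ioi i)

lemma pairs_succ (n : ℕ) : pairs (n + 1) = n + pairs n := by
  simp only [pairs, Fin.sum_univ_succ, Fin.card_Ioi]
  simp only [Fin.val_zero, Fin.val_succ]
  congr 1
  exact Finset.sum_congr rfl fun i _ => by omega

lemma vand_hom : IsHomogeneous
    (∏ i : Fin n, ∏ j ∈ Finset.Ioi i, (X j - X i : MvPolynomial (Fin n) ℝ) ^ 3) (3 * pairs n) := by
  rw [pairs, Finset.mul_sum]
  refine IsHomogeneous.prod _ _ _ fun i _ => ?_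
  rw [mul_comm, ← smul_eq_mul, ← Finset.sum_const]
  refine IsHomogeneous.prod _ _ _ fun j _ => ?_
  simpa using ((isHomogeneous_X ℝ j).sub (isHomogeneous_X ℝ i)).pow 3

lemma shifted_hom : IsHomogeneous (shifted n) (2 * n + 3 * pairs n) := by
  refine IsHomogeneous.mul ?_ vand_hom
  have h := IsHomogeneous.prod (univ : Finset (Fin n))
    (fun i => (X i : MvPolynomial (Fin n) ℝ) ^ 2) (fun _ => 2) fun i _ => by
      simpa using (isHomogeneous_X ℝ i).pow 2
  simpa [mul_comm] using h

lemma vand_rename (τ : Equiv.Perm (Fin n)) :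
    rename τ (∏ i : Fin n, ∏ j ∈ Finset.Ioi i, (X j - X i : MvPolynomial (Fin n) ℝ)) =
      ((Equiv.Perm.sign τ : ℤ) : MvPolynomial (Fin n) ℝ) *
        ∏ i : Fin n, ∏ j ∈ Finset.Ioi i, (X j - X i) := by
  have h := Matrix.det_vandermonde (fun i : Fin n => (X (τ i) : MvPolynomial (Fin n) ℝ))
  rw [map_prod]
  simp only [map_prod, map_sub, rename_X]
  rw [← h, ← Matrix.det_vandermonde (fun i : Fin n => (X i : MvPolynomial (Fin n) ℝ)),
    ← Matrix.det_permute τ]
  congr 1

lemma shifted_rename (τ : Equiv.Perm (Fin n)) :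
    rename τ (shifted n) = C ((Equiv.Perm.sign τ : ℤ) : ℝ) * shifted n := by
  have hx : rename τ (∏ i : Fin n, (X i : MvPolynomial (Fin n) ℝ)) = ∏ i : Fin n, X i := by
    rw [map_prod]
    simp only [rename_X]
    exact Equiv.prod_comp τ (fun i => (X i : MvPolynomial (Fin n) ℝ))
  simp only [shifted, map_mul, Finset.prod_pow, map_pow, hx, vand_rename]
  rcases Int.units_eq_one_or (Equiv.Perm.sign τ) with h | h <;> simp [h] <;> ring

lemma coeff_shifted_perm {Q : ℕ} (c : Config n Q) (τ : Equiv.Perm (Fin n)) :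
    coeff (expo (c ∘ τ)) (shifted n) =
      ((Equiv.Perm.sign τ : ℤ) : ℝ) * coeff (expo c) (shifted n) := by
  have h := coeff_rename_mapDomain τ τ.injective (shifted n) (expo (c ∘ τ))
  have hm : Finsupp.mapDomain τ (expo (c ∘ τ)) = expo c := by
    ext i
    obtain ⟨j, rfl⟩ := τ.surjective i
    rw [Finsupp.mapDomain_apply τ.injective]; rfl
  rw [hm, shifted_rename, coeff_C_mul] at h
  exact h.symm

/-- The functional evaluating an affine weight along `a e_p + (S-a) e_q`. -/
noncomputable def lam (m : Fin n →₀ ℕ) (p q : Fin n) (S : ℕ) (α β : ℝ)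
    (F : MvPolynomial (Fin n) ℝ) : ℝ :=
  ∑ a ∈ range (S + 1),
    (α + β * a) * coeff (m + Finsupp.single p a + Finsupp.single q (S - a)) F

lemma lam_mul {m : Fin n →₀ ℕ} {p q : Fin n} (hpq : p ≠ q) (hp : m p = 0) (hq : m q = 0)
    (S : ℕ) (α β : ℝ) (F : MvPolynomial (Fin n) ℝ) :
    lam m p q S α β ((X q - X p) * F) = if S = 0 then 0 else lam m p q (S - 1) (-β) 0 F := by
  rcases S with _ | s
  · simp [lam, sub_mul, coeff_X_mul', hp, hq]
  · simp only [lam, sub_mul, coeff_sub, mul_sub, Finset.sum_sub_distrib, Nat.succ_ne_zero, if_false,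
      Nat.add_sub_cancel]
    have h1 : ∑ a ∈ range (s + 1 + 1), (α + β * a) *
        coeff (m + Finsupp.single p a + Finsupp.single q (s + 1 - a)) (X q * F) =
        ∑ a ∈ range (s + 1), (α + β * a) *
          coeff (m + Finsupp.single p a + Finsupp.single q (s - a)) F := by
      rw [Finset.sum_range_succ, coeff_X_mul' _ q, if_neg (by simp [hpq.symm, hq]), mul_zero, add_zero]
      refine Finset.sum_congr rfl fun a ha => ?_
      have := Finset.mem_range.1 ha
      rw [show s + 1 - a = (s - a) + 1 by omega, Finsupp.single_add, ← add_assoc,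
        add_comm _ (Finsupp.single q 1), coeff_X_mul]
    have h2 : ∑ a ∈ range (s + 1 + 1), (α + β * a) *
        coeff (m + Finsupp.single p a + Finsupp.single q (s + 1 - a)) (X p * F) =
        ∑ a ∈ range (s + 1), (α + β * ((a : ℝ) + 1)) *
          coeff (m + Finsupp.single p a + Finsupp.single q (s - a)) F := by
      rw [Finset.sum_range_succ', coeff_X_mul' _ p, if_neg (by simp [hpq, hp]), mul_zero, add_zero]
      refine Finset.sum_congr rfl fun a ha => ?_
      rw [Nat.add_sub_add_right, Finsupp.single_add]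
      rw [show m + (Finsupp.single p a + Finsupp.single p 1) + Finsupp.single q (s - a)
        = Finsupp.single p 1 + (m + Finsupp.single p a + Finsupp.single q (s - a)) by abel,
        coeff_X_mul]
      push_cast; rfl
    rw [h1, h2, ← Finset.sum_sub_distrib]
    exact Finset.sum_congr rfl fun a _ => by ring

lemma shifted_dvd {p q : Fin n} (h : p ≠ q) :
    (X q - X p : MvPolynomial (Fin n) ℝ) ^ 2 ∣ shifted n := by
  rcases lt_or_gt_of_ne h with h' | h'
  · refine Dvd.dvd.mul_left ?_ _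
    refine (pow_dvd_pow _ (show 2 ≤ 3 by norm_num)).trans ?_
    exact (Finset.dvd_prod_of_mem (fun b => (X b - X p : MvPolynomial (Fin n) ℝ) ^ 3)
      (Finset.mem_Ioi.2 h')).trans (Finset.dvd_prod_of_mem (fun a => ∏ b ∈ Finset.Ioi a,
        (X b - X a : MvPolynomial (Fin n) ℝ) ^ 3) (Finset.mem_univ p))
  · rw [← neg_sq, neg_sub]
    refine Dvd.dvd.mul_left ?_ _
    refine (pow_dvd_pow _ (show 2 ≤ 3 by norm_num)).trans ?_
    exact (Finset.dvd_prod_of_mem (fun b => (X b - X q : MvPolynomial (Fin n) ℝ) ^ 3)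
      (Finset.mem_Ioi.2 h')).trans (Finset.dvd_prod_of_mem (fun a => ∏ b ∈ Finset.Ioi a,
        (X b - X a : MvPolynomial (Fin n) ℝ) ^ 3) (Finset.mem_univ q))

lemma lam_shifted {m : Fin n →₀ ℕ} {p q : Fin n} (hpq : p ≠ q) (hp : m p = 0) (hq : m q = 0)
    (S : ℕ) (α β : ℝ) : lam m p q S α β (shifted n) = 0 := by
  obtain ⟨F, hF⟩ := shifted_dvd hpq
  rw [hF, sq, mul_assoc, lam_mul hpq hp hq]
  split_ifs
  · rfl
  · rw [lam_mul hpq hp hq]
    split_ifs
    · rfl
    · simp [lam]

end Vale.Agent.P359
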