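import Vale.Agent.P359.Binomial
import Vale.Agent.P359.Poly

/-!
# P359: a trial state of energy at most three

An edge orbital is added to the Laughlin vector of one particle fewer.
-/

open Finset MvPolynomial
open scoped Classical

namespace Vale.Agent.P359

variable {n Q : ℕ}

/-- The product of the orbital norms. -/
noncomputable def normFac (c : Config n Q) : ℝ := ∏ i, Real.sqrt (Q.choose (c i))

lemma sqrt_choose_pos (Q : ℕ) (a : Fin (Q + 1)) : 0 < Real.sqrt (Q.choose a) :=
  Real.sqrt_pos.2 (by exact_mod_cast Nat.choose_pos (Nat.le_of_lt_succ a.isLt))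

lemma normFac_pos (c : Config n Q) : 0 < normFac c :=
  Finset.prod_pos fun i _ => sqrt_choose_pos Q (c i)

/-- The shifted Laughlin vector of `n` particles. -/
noncomputable def chi (d : Config n (3 * n)) : ℝ := coeff (expo d) (shifted n) / normFac d

/-- Orbital zero in the first factor, the shifted vector in the others. -/
noncomputable def seed (c : Config (n + 1) (3 * n)) : ℝ :=
  if c 0 = 0 then chi (c ∘ Fin.succ) else 0

/-- The trial state. -/
noncomputable def trial (c : Config (n + 1) (3 * n)) : ℝ :=
  ∑ σ : Equiv.Perm (Fin (n + 1)), ((Equiv.Perm.sign σ : ℤ) : ℝ) * seed (c ∘ σ)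

lemma trial_antisym : IsAntisym (trial (n := n)) := by
  intro c τ
  simp only [trial, Finset.mul_sum]
  refine Fintype.sum_equiv (Equiv.mulLeft τ) _ _ fun σ => ?_
  simp only [Equiv.coe_mulLeft, map_mul, Units.val_mul, Int.cast_mul, Equiv.Perm.coe_mul,
    Function.comp_assoc]
  rcases Int.units_eq_one_or (Equiv.Perm.sign τ) with h | h <;> simp [h]

lemma seed_ne_zero {c : Config (n + 1) (3 * n)} (h : seed c ≠ 0) :
    c 0 = 0 ∧ (∀ i : Fin n, 2 ≤ (c i.succ : ℕ) ∧ (c i.succ : ℕ) + 1 ≤ 3 * n) ∧
      ∑ i, (c i : ℕ) = 2 * n + 3 * pairs n := by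
  unfold seed at h
  split_ifs at h with h0
  · have hc : coeff (expo (c ∘ Fin.succ)) (shifted n) ≠ 0 := by
      intro hz; exact h (by simp [chi, hz])
    refine ⟨h0, fun i => ⟨?_, ?_⟩, ?_⟩
    · simpa using two_le_of_coeff hc i
    · simpa using coeff_le hc i
    · have := shifted_hom.degree_eq_sum_deg_support (MvPolynomial.mem_support_iff.2 hc)
      rw [Finset.sum_subset (Finset.subset_univ _) (fun i _ hi => by simpa using hi)] at this
      rw [Fin.sum_univ_succ, h0]
      simpa using this.symm
  · exact absurd rfl h

lemma trial_ne_zero {c : Config (n + 1) (3 * n)} (h : trial c ≠ 0) :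
    (∀ i, c i = 0 ∨ 2 ≤ (c i : ℕ) ∧ (c i : ℕ) + 1 ≤ 3 * n) ∧
      ∑ i, (c i : ℕ) = 2 * n + 3 * pairs n := by
  obtain ⟨σ, -, hσ⟩ := Finset.exists_ne_zero_of_sum_ne_zero h
  obtain ⟨h0, h1, h2⟩ := seed_ne_zero (right_ne_zero_of_mul hσ)
  refine ⟨fun i => ?_, ?_⟩
  · obtain ⟨j, rfl⟩ := σ.surjective i
    rcases Fin.eq_zero_or_eq_succ j with rfl | ⟨j', rfl⟩
    · exact Or.inl h0
    · exact Or.inr (h1 j')
  · rw [← h2]
    exact (Equiv.sum_comp σ (fun i => (c i : ℕ))).symm

lemma trial_inj {c : Config (n + 1) (3 * n)} (h : trial c ≠ 0) : Function.Injective c := by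
  intro i j hij
  by_contra hne
  apply h
  have := trial_antisym c (Equiv.swap i j)
  rw [Equiv.Perm.sign_swap hne] at this
  have hc : c ∘ Equiv.swap i j = c := by
    funext k
    rcases eq_or_ne k i with rfl | hki
    · simp [hij]
    rcases eq_or_ne k j with rfl | hkj
    · simp [hij]
    · simp [Equiv.swap_apply_of_ne_of_ne hki hkj]
  rw [hc] at this
  simp at this
  linarith

lemma exists_trial_ne_zero : ∃ c : Config (n + 1) (3 * n), trial c ≠ 0 := by
  obtain ⟨m, hm⟩ := MvPolynomial.ne_zero_iff.1 (shifted_ne_zero (n := n))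
  have hle := fun i => coeff_le hm i
  let k : Config n (3 * n) := fun i => ⟨m i, by have := hle i; omega⟩
  have hk : expo k = m := by ext i; rfl
  refine ⟨Fin.cons 0 k, ?_⟩
  have hperm : ∀ τ : Equiv.Perm (Fin n),
      ((Equiv.Perm.sign τ : ℤ) : ℝ) * chi (k ∘ τ) = chi k := by
    intro τ
    have hn : normFac (k ∘ τ) = normFac k :=
      Equiv.prod_comp τ (fun i => Real.sqrt ((3 * n).choose (k i)))
    rw [chi, chi, coeff_shifted_perm, hn]
    rcases Int.units_eq_one_or (Equiv.Perm.sign τ) with h | h <;> simp [h] <;> ring
  have key : trial (Fin.cons 0 k : Config (n + 1) (3 * n)) =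
      (Fintype.card (Equiv.Perm (Fin n)) : ℝ) * chi k := by
    rw [trial, ← Equiv.sum_comp Equiv.Perm.decomposeFin.symm, Fintype.sum_prod_type,
      Finset.sum_eq_single (0 : Fin (n + 1))]
    · rw [Finset.sum_congr rfl fun τ _ => ?_, Finset.sum_const, nsmul_eq_mul, Finset.card_univ]
      have hcomp : ((Fin.cons 0 k : Config (n + 1) (3 * n)) ∘
          Equiv.Perm.decomposeFin.symm ((0 : Fin (n + 1)), τ)) ∘ Fin.succ = k ∘ τ := by
        funext x; simp [Equiv.Perm.decomposeFin_symm_apply_succ]
      rw [seed, if_pos (by simp), hcomp, Equiv.Perm.decomposeFin.symm_sign, if_pos rfl, one_mul,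
        hperm]
    · intro p _ hp
      refine Finset.sum_eq_zero fun τ _ => ?_
      obtain ⟨p', rfl⟩ := Fin.exists_succ_eq.2 hp
      rw [seed, if_neg, mul_zero]
      simp only [Function.comp_apply, Equiv.Perm.decomposeFin_symm_apply_zero, Fin.cons_succ]
      intro hz
      have h2 := two_le_of_coeff hm p'
      have : m p' = 0 := congrArg Fin.val hz
      omega
    · simp
  rw [key]
  refine mul_ne_zero (by exact_mod_cast Fintype.card_ne_zero) (div_ne_zero ?_ (normFac_pos k).ne')
  rwa [hk]

/-- The pair vectors annihilate the shifted Laughlin vector. -/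
lemma chi_annih (d : Config n (3 * n)) {p q : Fin n} (hpq : p ≠ q) (S : ℕ) :
    ∑ a : Fin (3 * n + 1), ∑ b : Fin (3 * n + 1),
      pairVec (3 * n) S a b * chi (Function.update (Function.update d p a) q b) = 0 := by
  set m := expo (Function.update (Function.update d p 0) q 0)
  set R := ∏ i ∈ (univ.erase p).erase q, Real.sqrt ((3 * n).choose (d i))
  have hterm : ∀ a b : Fin (3 * n + 1),
      pairVec (3 * n) S a b * chi (Function.update (Function.update d p a) q b) =
      (if (a : ℕ) + b = S then
        ((S : ℝ) + (-2) * (a : ℕ)) *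
          coeff (m + Finsupp.single p (a : ℕ) + Finsupp.single q (S - a)) (shifted n) else 0) / R := by
    intro a b
    unfold pairVec
    split_ifs with h
    · have hR : normFac (Function.update (Function.update d p a) q b) =
          Real.sqrt ((3 * n).choose a) * Real.sqrt ((3 * n).choose b) * R := by
        rw [normFac, ← mul_prod_erase univ _ (mem_univ p),
          ← mul_prod_erase (univ.erase p) _ (Finset.mem_erase.2 ⟨hpq.symm, mem_univ q⟩)]
        simp only [Function.update_self, Function.update_of_ne hpq]
        rw [← mul_assoc]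
        congr 1
        refine Finset.prod_congr rfl fun i hi => ?_
        simp only [Finset.mem_erase] at hi
        simp [Function.update_of_ne hi.1, Function.update_of_ne hi.2.1]
      have he : expo (Function.update (Function.update d p a) q b) =
          m + Finsupp.single p (a : ℕ) + Finsupp.single q (S - a) := by
        ext i
        rcases eq_or_ne i q with rfl | hq
        · simp [m, hpq.symm]; omega
        rcases eq_or_ne i p with rfl | hp
        · simp [m, hpq, hq]
        · simp [m, Function.update_of_ne hq, Function.update_of_ne hp, hq, hp]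
      rw [chi, hR, he]
      have h1 := sqrt_choose_pos (3 * n) a
      have h2 := sqrt_choose_pos (3 * n) b
      have hb : ((b : ℕ) : ℝ) = (S : ℝ) - ((a : ℕ) : ℝ) := by
        have : ((a : ℕ) : ℝ) + ((b : ℕ) : ℝ) = (S : ℝ) := by exact_mod_cast h
        linarith
      rw [hb]
      field_simp
      ring
    · simp
  simp only [hterm, ← Finset.sum_div]
  rw [div_eq_zero_iff]
  refine Or.inl ?_
  have hl := lam_shifted (m := m) hpq (by simp [m, hpq]) (by simp [m]) S (S : ℝ) (-2)
  rw [lam] at hl
  refine Eq.trans ?_ hl
  set T := fun a : ℕ => ((S : ℝ) + (-2) * (a : ℕ)) *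
          coeff (m + Finsupp.single p a + Finsupp.single q (S - a)) (shifted n)
  have hin : ∀ a : Fin (3 * n + 1), (∑ b : Fin (3 * n + 1), if (a : ℕ) + b = S then T a else 0)
      = if (a : ℕ) ≤ S ∧ S - a < 3 * n + 1 then T a else 0 := by
    intro a
    split_ifs with h
    · rw [Finset.sum_eq_single ⟨S - a, h.2⟩]
      · rw [if_pos]; simp only; omega
      · intro b _ hb; rw [if_neg]; intro h'; exact hb (Fin.ext (by simp only; omega))
      · simp
    · exact Finset.sum_eq_zero fun b _ => if_neg (by have := b.isLt; omega)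
  rw [Finset.sum_congr rfl fun a _ => hin a,
    Fin.sum_univ_eq_sum_range (fun a => if a ≤ S ∧ S - a < 3 * n + 1 then T a else 0),
    ← Finset.sum_filter]
  refine Finset.sum_subset (fun a ha => ?_) (fun a ha hna => ?_)
  · simp only [Finset.mem_filter, Finset.mem_range] at ha ⊢; omega
  · simp only [Finset.mem_filter, Finset.mem_range] at ha hna
    simp only [T, mul_eq_zero]
    refine Or.inr (by_contra fun hne => ?_)
    have h1 := coeff_le hne p
    have h2 := coeff_le hne q
    simp [m, hpq, hpq.symm] at h1 h2
    omega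

lemma fin_val_eq_zero (a : Fin (Q + 1)) : (a : ℕ) = 0 ↔ a = 0 :=
  ⟨fun h => Fin.ext h, fun h => by simp [h]⟩

/-- Only an edge orbital in one of the two factors contributes. -/
lemma pairAmp_eq {i j : Fin (n + 1)} (hij : i ≠ j) (c : Config (n + 1) (3 * n))
    (S : ℕ) (hS : 1 ≤ S) :
    pairAmp S i j c trial =
      if h : S < 3 * n + 1 then
        2 * pairVec (3 * n) S 0 ⟨S, h⟩ *
          trial (Function.update (Function.update c i 0) j ⟨S, h⟩) else 0 := by
  let u := fun a b : Fin (3 * n + 1) =>
    pairVec (3 * n) S a b * trial (Function.update (Function.update c i a) j b)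
  let v := fun a b : Fin (3 * n + 1) => if a = 0 ∨ b = 0 then 0 else u a b
  have hv : ∑ a, ∑ b, v a b = 0 := by
    have : ∀ a b, v a b = ∑ σ : Equiv.Perm (Fin (n + 1)), if σ 0 = i ∨ σ 0 = j then 0 else
        ((Equiv.Perm.sign σ : ℤ) : ℝ) * (pairVec (3 * n) S a b *
          seed (Function.update (Function.update c i a) j b ∘ σ)) := by
      intro a b
      simp only [v, u, trial, Finset.mul_sum]
      split_ifs with h
      · refine (Finset.sum_eq_zero fun σ _ => ?_).symm
        split_ifs with hσ
        · rfl
        · have : seed (Function.update (Function.update c i a) j b ∘ σ) = 0 := by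
            by_contra hne
            obtain ⟨-, h1, -⟩ := seed_ne_zero hne
            rcases h with rfl | rfl
            · rcases Fin.eq_zero_or_eq_succ (σ.symm i) with h0 | ⟨p, hp⟩
              · exact hσ (Or.inl (by rw [← h0]; simp))
              · have := (h1 p).1
                simp [← hp, hij] at this
            · rcases Fin.eq_zero_or_eq_succ (σ.symm j) with h0 | ⟨p, hp⟩
              · exact hσ (Or.inr (by rw [← h0]; simp))
              · have := (h1 p).1
                simp [← hp] at this
          simp [this]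
      · refine Finset.sum_congr rfl fun σ _ => ?_
        split_ifs with hσ
        · have : seed (Function.update (Function.update c i a) j b ∘ σ) = 0 := by
            rw [seed, if_neg]
            intro h0
            rcases hσ with hσ | hσ
            · simp [hσ, hij] at h0; exact h (Or.inl h0)
            · simp [hσ] at h0; exact h (Or.inr h0)
          simp [this]
        · ring
    simp only [this]
    rw [Finset.sum_congr rfl fun a _ => Finset.sum_comm, Finset.sum_comm]
    refine Finset.sum_eq_zero fun σ _ => ?_
    split_ifs with hσ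
    · simp
    · simp only [← Finset.mul_sum]
      rw [not_or] at hσ
      obtain ⟨p, hp⟩ := (Fin.eq_zero_or_eq_succ (σ.symm i)).resolve_left
        (fun h => hσ.1 (by rw [← h]; simp))
      obtain ⟨q, hq⟩ := (Fin.eq_zero_or_eq_succ (σ.symm j)).resolve_left
        (fun h => hσ.2 (by rw [← h]; simp))
      have hi : σ p.succ = i := by rw [← hp]; simp
      have hj : σ q.succ = j := by rw [← hq]; simp
      have hpq : p ≠ q := fun h => hij (by rw [← hi, ← hj, h])
      have he : ∀ a b, seed (Function.update (Function.update c i a) j b ∘ σ) =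
          if c (σ 0) = 0 then chi (Function.update (Function.update (c ∘ σ ∘ Fin.succ) p a) q b)
          else 0 := by
        intro a b
        have hg : Function.Injective (fun x : Fin n => σ x.succ) :=
          σ.injective.comp (Fin.succ_injective n)
        have hc : (Function.update (Function.update c i a) j b ∘ σ) ∘ Fin.succ =
            Function.update (Function.update (c ∘ σ ∘ Fin.succ) p a) q b := by
          subst hi hj
          funext x
          rcases eq_or_ne x q with rfl | hxq
          · simp
          rcases eq_or_ne x p with rfl | hxp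
          · simp [hpq]
          · simp [Function.update_of_ne hxq, Function.update_of_ne hxp,
              Function.update_of_ne (hg.ne hxq), Function.update_of_ne (hg.ne hxp)]
        rw [seed, hc]
        simp [Function.update_of_ne hσ.1, Function.update_of_ne hσ.2]
      simp only [he]
      by_cases h0 : c (σ 0) = 0
      · simp only [if_pos h0]; rw [chi_annih _ hpq]; simp
      · simp [h0]
  have hsplit : ∀ a b, u a b = v a b + (if a = 0 then u a b else 0) + (if b = 0 then u a b else 0) := by
    intro a b
    have h00 : a = 0 → b = 0 → u a b = 0 := by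
      rintro rfl rfl
      simp [u, pairVec, show ¬ (0 = S) by omega]
    by_cases ha : a = 0 <;> by_cases hb : b = 0 <;> simp [v, ha, hb]
    simpa [ha, hb] using h00 ha hb
  change ∑ a, ∑ b, u a b = _
  rw [Finset.sum_congr rfl fun a _ => Finset.sum_congr rfl fun b _ => hsplit a b]
  simp only [Finset.sum_add_distrib, hv, zero_add]
  rw [Finset.sum_comm (f := fun a b => if a = 0 then u a b else 0)]
  simp only [Finset.sum_ite_eq', Finset.mem_univ, if_true]
  have hswap : ∀ b, u b 0 = u 0 b := by
    intro b
    have hc : Function.update (Function.update c i b) j 0 =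
        Function.update (Function.update c i 0) j b ∘ Equiv.swap i j := by
      funext x
      rcases eq_or_ne x i with rfl | hxi
      · simp [hij]
      rcases eq_or_ne x j with rfl | hxj
      · simp [hij]
      · simp [Equiv.swap_apply_of_ne_of_ne hxi hxj, hxi, hxj]
    simp only [u]
    rw [hc, trial_antisym, Equiv.Perm.sign_swap hij]
    unfold pairVec
    simp only [Fin.val_zero, add_zero, zero_add]
    split_ifs <;> push_cast <;> simp <;> ring
  simp only [hswap, ← two_mul]
  split_ifs with h
  · rw [Finset.sum_eq_single (⟨S, h⟩ : Fin (3 * n + 1))]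
    · simp only [u]; ring
    · intro b _ hb
      have : (b : ℕ) ≠ S := fun hh => hb (Fin.ext (by simpa using hh))
      simp [u, pairVec, this]
    · simp
  · rw [Finset.sum_eq_zero, mul_zero]
    intro b _
    have := b.isLt
    have h' : (b : ℕ) ≠ S := by omega
    simp [u, pairVec, h']

lemma pairNormSq_eq {S : ℕ} (hQ : 2 ≤ Q) (hS : 1 ≤ S) (hSQ : S ≤ Q) :
    pairNormSq Q S = 2 * Q * ((2 * Q - 2).choose (S - 1) : ℝ) := by
  rw [← centred Q S hS hQ]
  unfold pairNormSq pairVec
  rw [Fin.sum_univ_eq_sum_range
    (fun a => ∑ b : Fin (Q + 1), (if a + (b : ℕ) = S then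
      ((b : ℝ) - a) * Real.sqrt (Q.choose a) * Real.sqrt (Q.choose b) else 0) ^ 2)]
  symm
  refine Finset.sum_subset_zero_on_sdiff (by intro a; simp; omega) ?_ ?_
  · intro a ha
    simp only [Finset.mem_sdiff, Finset.mem_range] at ha
    exact Finset.sum_eq_zero fun b _ => by rw [if_neg (by omega)]; simp
  · intro a ha
    rw [Finset.mem_range] at ha
    rw [Finset.sum_eq_single (⟨S - a, by omega⟩ : Fin (Q + 1))]
    · rw [if_pos (by simp only; omega)]
      simp only
      rw [Nat.cast_sub (by omega), mul_pow, mul_pow, Real.sq_sqrt (by positivity),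
        Real.sq_sqrt (by positivity)]
      ring
    · intro b _ hb
      rw [if_neg]
      · simp
      · intro h; exact hb (Fin.ext (by simp only; omega))
    · simp

/-- The energy of the trial state is at most three times its squared norm. -/
theorem trial_energy (hn : 1 ≤ n) : energy (trial (n := n)) ≤ 3 * inner' trial (trial (n := n)) := by
  let g := fun S : ℕ => if 2 ≤ S then (S : ℝ) / 2 ^ (S - 1) else 0
  have hg0 : ∀ S, 0 ≤ g S := fun S => by simp only [g]; split_ifs <;> positivity
  let P := (univ : Finset (Fin (n + 1) × Fin (n + 1))).filter (fun x => x.1 < x.2)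
  let Φ : Fin (n + 1) → Fin (n + 1) → Fin (3 * n + 1) → Config (n + 1) (3 * n) → Config (n + 1) (3 * n) :=
    fun i j S c => Function.update (Function.update c i 0) j S
  have step1 : ∀ x ∈ P, ∀ c, ∑ S ∈ Finset.Icc 1 (2 * (3 * n) - 1),
      pairAmp S x.1 x.2 c trial ^ 2 / pairNormSq (3 * n) S ≤
      ∑ S : Fin (3 * n + 1), 2 * g S * trial (Φ x.1 x.2 S c) ^ 2 := by
    intro x hx c
    have hlt : x.1 < x.2 := (Finset.mem_filter.1 hx).2
    let B := fun S : ℕ => if h : S < 3 * n + 1 then 2 * g S * trial (Φ x.1 x.2 ⟨S, h⟩ c) ^ 2 else 0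
    have hB : ∑ S : Fin (3 * n + 1), 2 * g S * trial (Φ x.1 x.2 S c) ^ 2 =
        ∑ S ∈ range (3 * n + 1), B S := by
      rw [← Fin.sum_univ_eq_sum_range]
      exact Finset.sum_congr rfl fun S _ => by simp only [B]; rw [dif_pos S.isLt]
    rw [hB]
    have hB0 : ∀ S, 0 ≤ B S := fun S => by
      simp only [B]; split_ifs
      · have := hg0 S; positivity
      · exact le_rfl
    calc ∑ S ∈ Finset.Icc 1 (2 * (3 * n) - 1), pairAmp S x.1 x.2 c trial ^ 2 / pairNormSq (3 * n) S
        ≤ ∑ S ∈ Finset.Icc 1 (2 * (3 * n) - 1), B S := by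
          refine Finset.sum_le_sum fun S hS => ?_
          have hS1 := (Finset.mem_Icc.1 hS).1
          rw [pairAmp_eq hlt.ne c S hS1]
          simp only [B]
          split_ifs with h
          · rcases eq_or_ne S 1 with rfl | hS2
            · have hz : trial (Function.update (Function.update c x.1 0) x.2 ⟨1, h⟩) = 0 := by
                by_contra hne
                rcases (trial_ne_zero hne).1 x.2 with h0 | h0
                · simp [Fin.ext_iff] at h0
                · simp at h0
              simp [hz, Φ]
            · rw [pairNormSq_eq (by omega) hS1 (by omega)]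
              have hw := weight_le (Q := 3 * n) hS1
              have hp : pairVec (3 * n) S 0 ⟨S, h⟩ ^ 2 = (S : ℝ) ^ 2 * ((3 * n).choose S : ℝ) := by
                simp [pairVec, mul_pow, Real.sq_sqrt]
              have hg : g S = (S : ℝ) / 2 ^ (S - 1) := by simp [g, show 2 ≤ S by omega]
              rw [hg, mul_pow, mul_pow, hp]
              have := mul_le_mul_of_nonneg_left hw
                (show 0 ≤ 2 * trial (Φ x.1 x.2 ⟨S, h⟩ c) ^ 2 by positivity)
              refine le_trans (le_of_eq ?_) (this.trans (le_of_eq ?_))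
              · simp only [Φ]; field_simp 
              · ring
          · simp
      _ = ∑ S ∈ (Finset.Icc 1 (2 * (3 * n) - 1)).filter (fun S => S < 3 * n + 1), B S := by
          refine (Finset.sum_filter_of_ne fun S _ h => ?_).symm
          by_contra hlt
          exact h (by simp only [B]; rw [dif_neg hlt])
      _ ≤ ∑ S ∈ range (3 * n + 1), B S :=
          Finset.sum_le_sum_of_subset_of_nonneg
            (fun S hS => by simp only [Finset.mem_filter] at hS; simpa using hS.2) fun S _ _ => hB0 S
  have step2 : ∀ S : Fin (3 * n + 1), g S * (2 * ∑ x ∈ P, ∑ c ∈ restConfigs x.1 x.2,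
      trial (Φ x.1 x.2 S c) ^ 2) ≤ g S * inner' trial (trial (n := n)) := by
    intro S
    rcases lt_or_ge (S : ℕ) 2 with h2 | h2
    · simp [g, show ¬ 2 ≤ (S : ℕ) by omega]
    refine mul_le_mul_of_nonneg_left ?_ (hg0 S)
    have hS0 : S ≠ 0 := by intro h; simp [h] at h2
    let pat := fun (i j : Fin (n + 1)) =>
      ∑ d : Config (n + 1) (3 * n), if d i = 0 ∧ d j = S then trial d ^ 2 else 0
    have hre : ∀ i j : Fin (n + 1), i ≠ j → ∑ c ∈ restConfigs i j, trial (Φ i j S c) ^ 2 = pat i j := by
      intro i j hij
      simp only [pat, ← Finset.sum_filter]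
      refine Finset.sum_nbij' (fun c => Function.update c j S) (fun d => Function.update d j 0)
        ?_ ?_ ?_ ?_ ?_
      · intro c hc; simp [restConfigs] at hc; simp [hij, hc.1]
      · intro d hd; simp at hd; simp [restConfigs, hij, hd.1]
      · intro c hc; simp [restConfigs] at hc; simp [← hc.2]
      · intro d hd; simp at hd; simp [← hd.2]
      · intro c hc
        simp [restConfigs] at hc
        have hi : Function.update c i 0 = c := by rw [← hc.1]; simp
        simp [Φ, hi]
    have hsym : ∀ i j : Fin (n + 1), pat j i = pat i j := by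
      intro i j
      rcases eq_or_ne i j with rfl | hij
      · rfl
      refine Fintype.sum_equiv (Equiv.arrowCongr (Equiv.swap i j) (Equiv.refl _)) _ _ fun d => ?_
      have he : (Equiv.arrowCongr (Equiv.swap i j) (Equiv.refl (Fin (3 * n + 1)))) d =
          d ∘ Equiv.swap i j := by funext x; simp [Equiv.arrowCongr]
      rw [he, trial_antisym, Equiv.Perm.sign_swap hij]
      simp [Equiv.swap_apply_left, Equiv.swap_apply_right]
    calc 2 * ∑ x ∈ P, ∑ c ∈ restConfigs x.1 x.2, trial (Φ x.1 x.2 S c) ^ 2
        = ∑ x ∈ P, pat x.1 x.2 + ∑ x ∈ P, pat x.2 x.1 := by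
          rw [two_mul]
          congr 1
          · exact Finset.sum_congr rfl fun x hx => hre _ _ (Finset.mem_filter.1 hx).2.ne
          · exact Finset.sum_congr rfl fun x hx => by
              rw [hre _ _ (Finset.mem_filter.1 hx).2.ne, hsym]
      _ = ∑ x ∈ P, pat x.1 x.2 +
          ∑ x ∈ (univ : Finset (Fin (n + 1) × Fin (n + 1))).filter (fun x => x.2 < x.1),
            pat x.1 x.2 := by
          congr 1
          refine Finset.sum_nbij' Prod.swap Prod.swap ?_ ?_ ?_ ?_ ?_ <;> simp [P]
      _ ≤ ∑ x : Fin (n + 1) × Fin (n + 1), pat x.1 x.2 := by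
          rw [← Finset.sum_union (Finset.disjoint_filter.2 fun x _ h => not_lt.2 h.le)]
          refine Finset.sum_le_sum_of_subset_of_nonneg (Finset.subset_univ _) fun x _ _ =>
            Finset.sum_nonneg fun d _ => ?_
          split_ifs <;> positivity
      _ = ∑ d : Config (n + 1) (3 * n), ∑ x : Fin (n + 1) × Fin (n + 1),
            if d x.1 = 0 ∧ d x.2 = S then trial d ^ 2 else 0 := Finset.sum_comm
      _ ≤ ∑ d : Config (n + 1) (3 * n), trial d ^ 2 := by
          refine Finset.sum_le_sum fun d _ => ?_
          rcases eq_or_ne (trial d) 0 with h0 | h0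
          · simp [h0]
          rw [← Finset.sum_filter, Finset.sum_const, nsmul_eq_mul]
          refine mul_le_of_le_one_left (sq_nonneg _) ?_
          exact_mod_cast Finset.card_le_one.2 fun x hx y hy => by
            simp only [Finset.mem_filter] at hx hy
            exact Prod.ext (trial_inj h0 (hx.2.1.trans hy.2.1.symm))
              (trial_inj h0 (hx.2.2.trans hy.2.2.symm))
      _ = inner' trial trial := by simp [inner', sq]
  calc energy (trial (n := n))
      ≤ ∑ x ∈ P, ∑ c ∈ restConfigs x.1 x.2, ∑ S : Fin (3 * n + 1),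
          2 * g S * trial (Φ x.1 x.2 S c) ^ 2 :=
        Finset.sum_le_sum fun x hx => Finset.sum_le_sum fun c _ => step1 x hx c
    _ = ∑ S : Fin (3 * n + 1), g S * (2 * ∑ x ∈ P, ∑ c ∈ restConfigs x.1 x.2,
          trial (Φ x.1 x.2 S c) ^ 2) := by
        rw [Finset.sum_congr rfl fun x _ => Finset.sum_comm, Finset.sum_comm]
        simp only [Finset.mul_sum]
        exact Finset.sum_congr rfl fun S _ => Finset.sum_congr rfl fun x _ =>
          Finset.sum_congr rfl fun c _ => by ring
    _ ≤ ∑ S : Fin (3 * n + 1), g S * inner' trial (trial (n := n)) :=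
        Finset.sum_le_sum fun S _ => step2 S
    _ ≤ 3 * inner' trial (trial (n := n)) := by
        rw [← Finset.sum_mul, Fin.sum_univ_eq_sum_range g]
        refine mul_le_mul_of_nonneg_right (weight_sum _) ?_
        exact Finset.sum_nonneg fun d _ => mul_self_nonneg _

/-- The trial state is orthogonal to the Laughlin vector. -/
theorem trial_orth (hn : 1 ≤ n) : inner' (laughlin (n + 1)) (trial (n := n)) = 0 := by
  refine Finset.sum_eq_zero fun c _ => ?_
  rcases eq_or_ne (trial (n := n) c) 0 with h | h
  · exact mul_eq_zero_of_right _ h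
  refine mul_eq_zero_of_left ?_ _
  have hs := (trial_ne_zero h).2
  rw [laughlin, vand_hom.coeff_eq_zero, zero_div]
  rw [Finsupp.degree_eq_sum, pairs_succ]
  simp only [Finsupp.equivFunOnFinite_symm_apply_apply]
  intro he
  have : ∑ i, (c i : ℕ) = 3 * (n + pairs n) := he
  omega

end Vale.Agent.P359
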